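import Vale.Agent.P181.SZR3.Pow

set_option autoImplicit false

/-!
# P181, DG (D4a): the `sl₂` core

The powers `(∑ X (i, a) ∂/∂X (i, c)) ^ D` are injective on the polynomials of degree `k` in the
column `c` and degree `r` in the column `a` when `D ≤ k - r`.
-/

open MvPolynomial

namespace Vale.Agent.P181.DG4a

open Vale.Agent.P181.SZR3

variable {m : ℕ} {σ : Type} [Fintype σ] [DecidableEq σ]

/-- One unit moved from the column `c` to the column `a`. -/
def mv (d : σ → ℕ) (a c : σ) (j : σ) : ℕ :=
  if j = a then d a + 1 else if j = c then d c - 1 else d j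

lemma colH_mv {a c : σ} (hac : a ≠ c) {d : σ → ℕ} {f : MvPolynomial (Fin m × σ) ℂ}
    (hf : ColH d f) (hc : 1 ≤ d c) : ColH (mv d a c) (colD a c f) := by
  refine colH_colD hf fun j => ?_
  simp only [mv]
  by_cases h1 : j = a
  · subst h1
    simp [Ne.symm hac]
  · by_cases h2 : j = c
    · subst h2
      simp [hac, Ne.symm hac]
      omega
    · simp [h1, h2, Ne.symm h1, Ne.symm h2]

/-- The degrees after `u` applications. -/
def mvu (d : σ → ℕ) (a c : σ) (u : ℕ) (j : σ) : ℕ :=
  if j = a then d a + u else if j = c then d c - u else d j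

lemma colH_mvu {a c : σ} (hac : a ≠ c) {d : σ → ℕ} {f : MvPolynomial (Fin m × σ) ℂ}
    (hf : ColH d f) (u : ℕ) (hu : u ≤ d c) : ColH (mvu d a c u) (itD a c u f) := by
  induction u with
  | zero =>
    rw [itD_zero]
    intro v hv j
    rw [hf v hv j, mvu]
    split_ifs with h1 h2
    · rw [h1, Nat.add_zero]
    · rw [h2, Nat.sub_zero]
    · rfl
  | succ u ih =>
    rw [itD_succ]
    refine colH_colD (ih (by omega)) fun j => ?_
    simp only [mvu]
    by_cases h1 : j = a
    · subst h1
      simp [Ne.symm hac]
      omega
    · by_cases h2 : j = c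
      · subst h2
        simp [hac, Ne.symm hac]
        omega
      · simp [h1, h2, Ne.symm h1, Ne.symm h2]

omit [Fintype σ] in
lemma itD_succ' (a c : σ) (u : ℕ) (f : MvPolynomial (Fin m × σ) ℂ) :
    itD a c (u + 1) f = itD a c u (colD a c f) := by
  rw [itD, pow_succ]
  rfl

/-- The commutation relation for powers. -/
lemma colD_itD_comm {a c : σ} (hac : a ≠ c) {d : σ → ℕ} {f : MvPolynomial (Fin m × σ) ℂ}
    (hf : ColH d f) (u : ℕ) (hu : u + 1 ≤ d c) :
    colD c a (itD a c (u + 1) f) = itD a c (u + 1) (colD c a f) +
      (((u : ℂ) + 1) * ((d c : ℂ) - d a - u)) • itD a c u f := by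
  induction u with
  | zero =>
    rw [itD_succ, itD_zero, colD_colD hac, colD_self hf, colD_self hf, itD_succ, itD_zero,
      add_sub_assoc, ← sub_smul]
    simp
  | succ u ih =>
    have h1 := colH_mvu hac hf (u + 1) (by omega)
    have h2 : mvu d a c (u + 1) a = d a + (u + 1) := by simp [mvu]
    have h3 : mvu d a c (u + 1) c = d c - (u + 1) := by simp [mvu, Ne.symm hac]
    rw [itD_succ a c (u + 1), colD_colD hac, ih (by omega), map_add, Derivation.map_smul,
      ← itD_succ a c u, colD_self h1, colD_self h1, h2, h3, ← itD_succ a c (u + 1),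
      add_sub_assoc, ← sub_smul, add_assoc, ← add_smul]
    congr 2
    rw [Nat.cast_sub (by omega)]
    push_cast
    ring

/-- **The `sl₂` core.** -/
theorem itD_inj {a c : σ} (hac : a ≠ c) : ∀ (r D : ℕ) (d : σ → ℕ)
    (f : MvPolynomial (Fin m × σ) ℂ), ColH d f → d a = r → D + r ≤ d c → itD a c D f = 0 →
    f = 0 := by
  intro r
  induction r with
  | zero =>
    intro D d f hf hr hD h0
    exact itD_injective hac hr hf D (by omega) h0
  | succ r ihr =>
    intro D
    induction D with
    | zero =>
      intro d f _ _ _ h0
      rwa [itD_zero] at h0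
    | succ D ihD =>
      intro d f hf hr hD h0
      have h1 := colD_itD_comm hac hf D (by omega)
      rw [h0, map_zero] at h1
      have h2 : itD a c (D + 2) (colD c a f) = 0 := by
        have h3 := congrArg (colD a c) h1
        rw [map_zero, map_add, Derivation.map_smul, ← itD_succ, ← itD_succ, h0, smul_zero,
          add_zero] at h3
        exact h3.symm
      have h4 : colD c a f = 0 := by
        refine ihr (D + 2) (mv d c a) (colD c a f) (colH_mv (Ne.symm hac) hf (by omega)) ?_ ?_ h2
        · simp only [mv, if_neg hac, if_true]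
          omega
        · simp only [mv, if_true]
          omega
      rw [h4, map_zero, zero_add] at h1
      have h5 : (((D : ℂ) + 1) * ((d c : ℂ) - d a - D)) ≠ 0 := by
        apply mul_ne_zero
        · exact_mod_cast Nat.succ_ne_zero D
        · intro h
          have h6 : (d c : ℂ) = ((d a + D : ℕ) : ℂ) := by
            push_cast
            linear_combination h
          have h7 : d c = d a + D := by exact_mod_cast h6
          omega
      exact ihD d f hf hr (by omega) ((smul_eq_zero.1 h1.symm).resolve_left h5)

end Vale.Agent.P181.DG4a
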