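import Vale.Agent.P181.DG4a.Core

set_option autoImplicit false

/-!
# P181, DG (D4a): column degree components, column renamings, polarisations
-/

open MvPolynomial

namespace Vale.Agent.P181.DG4a

open Vale.Agent.P181.SZR3

variable {m : ℕ} {τ τ' τ'' : Type}

/-- The degree in the column `j`. -/
def cdeg (v : Fin m × τ →₀ ℕ) (j : τ) : ℕ := ∑ i, v (i, j)

lemma cdeg_zero : cdeg (0 : Fin m × τ →₀ ℕ) = 0 := by
  funext j
  simp [cdeg]

lemma cdeg_add (u v : Fin m × τ →₀ ℕ) : cdeg (u + v) = cdeg u + cdeg v := by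
  funext j
  simp [cdeg, Finset.sum_add_distrib]

lemma cdeg_single [DecidableEq τ] (i : Fin m) (x y : τ) (n : ℕ) :
    cdeg (Finsupp.single (i, x) n) y = if x = y then n else 0 := by
  simp only [cdeg, Finsupp.single_apply, Prod.mk.injEq]
  by_cases h : x = y
  · simp [h]
  · simp [h]

/-- The column renaming. -/
noncomputable def rn (φ : τ → τ') :
    MvPolynomial (Fin m × τ) ℂ →ₐ[ℂ] MvPolynomial (Fin m × τ') ℂ :=
  rename fun p => (p.1, φ p.2)

lemma rn_rn (φ : τ → τ') (ψ : τ' → τ'') (f : MvPolynomial (Fin m × τ) ℂ) :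
    rn ψ (rn φ f) = rn (ψ ∘ φ) f := by
  rw [rn, rn, rename_rename]
  rfl

lemma cdeg_mapDomain [Fintype τ] [DecidableEq τ'] (φ : τ → τ') (u : Fin m × τ →₀ ℕ) (y : τ') :
    cdeg (u.mapDomain (fun p : Fin m × τ => (p.1, φ p.2))) y =
      ∑ x ∈ Finset.univ.filter (fun x => φ x = y), cdeg u x := by
  classical
  induction u using Finsupp.induction_linear with
  | zero => simp [cdeg_zero]
  | add u v hu hv =>
    rw [Finsupp.mapDomain_add, cdeg_add, Pi.add_apply, hu, hv, cdeg_add]
    simp only [Pi.add_apply]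
    rw [Finset.sum_add_distrib]
  | single p n =>
    rw [Finsupp.mapDomain_single, cdeg_single]
    obtain ⟨i, x⟩ := p
    simp only [cdeg_single]
    rw [Finset.sum_ite_eq]
    simp

/-- The monomials of a renamed polynomial. -/
lemma exists_coeff_rn (φ : τ → τ') (f : MvPolynomial (Fin m × τ) ℂ)
    (v : Fin m × τ' →₀ ℕ) (h : coeff v (rn φ f) ≠ 0) :
    ∃ u, coeff u f ≠ 0 ∧ u.mapDomain (fun p : Fin m × τ => (p.1, φ p.2)) = v := by
  obtain ⟨u, hu1, hu2⟩ := coeff_rename_ne_zero _ _ _ h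
  exact ⟨u, hu2, hu1⟩

open scoped Classical in
/-- The component of column degrees `d`, as a function. -/
noncomputable def cpf (d : τ → ℕ) (f : MvPolynomial (Fin m × τ) ℂ) :
    MvPolynomial (Fin m × τ) ℂ :=
  ∑ v ∈ f.support.filter (fun v => cdeg v = d), monomial v (coeff v f)

open scoped Classical in
lemma coeff_cpf (d : τ → ℕ) (f : MvPolynomial (Fin m × τ) ℂ) (v : Fin m × τ →₀ ℕ) :
    coeff v (cpf d f) = if cdeg v = d then coeff v f else 0 := by
  rw [cpf, coeff_sum]
  simp_rw [coeff_monomial]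
  rw [Finset.sum_ite_eq']
  simp only [Finset.mem_filter, mem_support_iff]
  by_cases h1 : cdeg v = d
  · by_cases h2 : coeff v f = 0
    · simp [h1, h2]
    · simp [h1, h2]
  · simp [h1]

/-- The component of column degrees `d`. -/
noncomputable def cp (d : τ → ℕ) :
    MvPolynomial (Fin m × τ) ℂ →ₗ[ℂ] MvPolynomial (Fin m × τ) ℂ where
  toFun := cpf d
  map_add' f g := by
    classical
    apply MvPolynomial.ext
    intro v
    rw [coeff_add, coeff_cpf, coeff_cpf, coeff_cpf, coeff_add]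
    split_ifs <;> simp
  map_smul' c f := by
    classical
    apply MvPolynomial.ext
    intro v
    rw [RingHom.id_apply, coeff_smul, coeff_cpf, coeff_cpf, coeff_smul]
    split_ifs <;> simp

open scoped Classical in
lemma coeff_cp (d : τ → ℕ) (f : MvPolynomial (Fin m × τ) ℂ) (v : Fin m × τ →₀ ℕ) :
    coeff v (cp d f) = if cdeg v = d then coeff v f else 0 := coeff_cpf d f v

lemma cdeg_of_coeff_cp {d : τ → ℕ} {f : MvPolynomial (Fin m × τ) ℂ} {v : Fin m × τ →₀ ℕ}
    (h : coeff v (cp d f) ≠ 0) : cdeg v = d ∧ coeff v f ≠ 0 := by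
  classical
  rw [coeff_cp] at h
  split_ifs at h with h1
  · exact ⟨h1, h⟩
  · exact absurd rfl h

lemma colH_cp (d : τ → ℕ) (f : MvPolynomial (Fin m × τ) ℂ) : ColH d (cp d f) := fun _ hv j =>
  congrFun (cdeg_of_coeff_cp hv).1 j

lemma eq_zero_of_cp {f : MvPolynomial (Fin m × τ) ℂ} (h : ∀ d, cp d f = 0) : f = 0 := by
  classical
  apply MvPolynomial.ext
  intro v
  have h1 := congrArg (coeff v) (h (cdeg v))
  rw [coeff_cp, if_pos rfl] at h1
  exact h1

/-- Components commute with graded maps. -/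
lemma cp_comm (L : MvPolynomial (Fin m × τ) ℂ →ₗ[ℂ] MvPolynomial (Fin m × τ') ℂ) (d : τ → ℕ)
    (d' : τ' → ℕ) (hL : ∀ f v, coeff v (L f) ≠ 0 → ∃ u, coeff u f ≠ 0 ∧
      (cdeg v = d' ↔ cdeg u = d)) (f : MvPolynomial (Fin m × τ) ℂ) :
    cp d' (L f) = L (cp d f) := by
  classical
  have h1 : L f = L (cp d f) + L (f - cp d f) := by
    rw [← map_add]
    congr 1
    ring
  have h2 : cp d' (L (cp d f)) = L (cp d f) := by
    apply MvPolynomial.ext
    intro v
    rw [coeff_cp]
    split_ifs with h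
    · rfl
    · by_contra hv
      obtain ⟨u, hu1, hu2⟩ := hL _ v (Ne.symm hv)
      exact h (hu2.2 (cdeg_of_coeff_cp hu1).1)
  have h3 : cp d' (L (f - cp d f)) = 0 := by
    apply MvPolynomial.ext
    intro v
    rw [coeff_cp, coeff_zero]
    split_ifs with h
    · by_contra hv
      obtain ⟨u, hu1, hu2⟩ := hL _ v hv
      rw [coeff_sub, coeff_cp, if_pos (hu2.1 h), sub_self] at hu1
      exact hu1 rfl
    · rfl
  rw [h1, map_add, h2, h3, add_zero]

end Vale.Agent.P181.DG4a
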