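import Vale.Agent.P181.DG4a.Top
import Vale.Agent.P181.DGx.H514.Op

set_option autoImplicit false

/-!
# P181, DG (D4i): graded injectivity of `symQ`
-/

open MvPolynomial

namespace Vale.Agent.P181.DG4a

open Vale.Agent.P181.SZR3
open Vale.Agent.P181.SZT0 (rc inj_pr coeff_rc)
open Vale.Agent.P181.DG.H514 (RestStmt NFQStmt NF symQ symQ_apply Qn nw nw_inj nw_ne
  exists_coeff_Qn rc_cmp_Qn cmp coeff_cmp_pos coeff_cmp_neg)

lemma cmp_eq_cp {m : ℕ} {B : Type} [Fintype B] [DecidableEq B] (δ : B → ℕ)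
    (f : MvPolynomial (Fin m × B) ℂ) : cmp δ f = cp δ f := by
  apply MvPolynomial.ext
  intro v
  by_cases h : cdeg v = δ
  · rw [coeff_cmp_pos f (fun b => congrFun h b), coeff_cp, if_pos h]
  · rw [coeff_cmp_neg f (fun h1 => h (funext h1)), coeff_cp, if_neg h]

lemma rc_eq_rn {m : ℕ} {τ τ' : Type} (φ : τ → τ') (f : MvPolynomial (Fin m × τ) ℂ) :
    rc m φ f = rn φ f := rfl

/-- **[D4i]** -/
theorem nfq (hR : RestStmt) : NFQStmt := by
  classical
  intro m σ _ _ δ T n c hD h hk hs hNF
  by_contra hcon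
  rw [NF] at hcon
  push Not at hcon
  obtain ⟨v0, hv0, hv0'⟩ := hcon
  apply hv0
  let d : σ ⊕ Fin T → ℕ := cdeg v0
  have hd1 : ∀ j : Fin T, 1 ≤ d (Sum.inr j) := fun j => Nat.one_le_iff_ne_zero.2 (hv0' j)
  have hdc : d (Sum.inl c) = δ c := hk v0 hv0 c
  suffices hz : cp d h = 0 by
    have h1 := congrArg (coeff v0) hz
    rwa [coeff_cp, if_pos rfl] at h1
  set D := n + 2 with hDn
  -- the target degrees
  let d0 : Fin (T + D) → ℕ := Fin.addCases (fun j => d (Sum.inr j)) (fun _ => 1)
  have hd01 : ∀ j, d0 (Fin.castAdd D j) = d (Sum.inr j) := fun j => Fin.addCases_left j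
  have hd02 : ∀ l, d0 (Fin.natAdd T l) = 1 := fun l => Fin.addCases_right l
  have hd03 : ∀ y, 1 ≤ d0 y := by
    intro y
    refine Fin.addCases (fun j => ?_) (fun l => ?_) y
    · rw [hd01]
      exact hd1 j
    · rw [hd02]
  let d' : σ ⊕ Fin (T + D) → ℕ :=
    Sum.elim (fun x => if x = c then δ c - D else d (Sum.inl x)) d0
  let κ0 : Fin (T + D) → Option (Fin T) :=
    Fin.addCases (fun j => if d (Sum.inr j) = 1 then none else some j) (fun _ => none)
  have hκ01 : ∀ j, κ0 (Fin.castAdd D j) = if d (Sum.inr j) = 1 then none else some j :=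
    fun j => Fin.addCases_left j
  have hκ02 : ∀ l, κ0 (Fin.natAdd T l) = none := fun l => Fin.addCases_right l
  have hκ0 : ∀ y, d0 y = 1 → κ0 y = none := by
    intro y
    refine Fin.addCases (fun j hj => ?_) (fun l _ => hκ02 l) y
    rw [hd01] at hj
    rw [hκ01, if_pos hj]
  let κ : σ ⊕ Fin (T + D) → σ ⊕ Option (Fin T) := Sum.map id κ0
  let κ1 : σ ⊕ Fin T → σ ⊕ Option (Fin T) :=
    Sum.map id fun j => if d (Sum.inr j) = 1 then none else some j
  have hbij : ∀ {n : ℕ} (s : Equiv.Perm (Fin n)),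
      Function.Bijective (Sum.map id s : σ ⊕ Fin n → σ ⊕ Fin n) := fun s =>
    ⟨Sum.map_injective.2 ⟨Function.injective_id, s.injective⟩,
      Sum.map_surjective.2 ⟨Function.surjective_id, s.surjective⟩⟩
  let QQ := Qn (m := m) (nw σ T n) (Sum.inl c) n
    (rn (Sum.map id (Fin.castAdd D)) h)
  have hnwf : ∀ j, j < n + 2 → ∃ l : Fin D, nw σ T n j = Sum.inr (Fin.natAdd T l) ∧
      (l : ℕ) = j := fun j hj => ⟨Fin.ofNat (n + 2) j, rfl, Nat.mod_eq_of_lt hj⟩
  have hemb : ∀ v, coeff v (rn (Sum.map id (Fin.castAdd D)) h) ≠ 0 → ∃ u, coeff u h ≠ 0 ∧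
      (∀ x, cdeg v (Sum.inl x) = cdeg u (Sum.inl x)) ∧
      (∀ j, cdeg v (Sum.inr (Fin.castAdd D j)) = cdeg u (Sum.inr j)) ∧
      ∀ l, cdeg v (Sum.inr (Fin.natAdd T l)) = 0 := by
    intro v hv
    obtain ⟨u, hu, rfl⟩ := exists_coeff_rn _ _ v hv
    refine ⟨u, hu, fun x => ?_, fun j => ?_, fun l => ?_⟩
    · exact cdeg_mapDomain_inj (Sum.map id (Fin.castAdd D)) (emb_inj (D := D)) u (Sum.inl x)
    · exact cdeg_mapDomain_inj (Sum.map id (Fin.castAdd D)) (emb_inj (D := D)) u (Sum.inr j)
    · refine cdeg_mapDomain_not (Sum.map id (Fin.castAdd D)) (Sum.inr (Fin.natAdd T l) :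
        σ ⊕ Fin (T + D)) ?_ u
      rintro (x | j) h3
      · exact absurd h3 (by simp)
      · rw [Sum.map_inr] at h3
        have h4 := congrArg Fin.val (Sum.inr_injective h3)
        simp at h4
        omega
  -- the two claims
  have hA : ∀ s : Equiv.Perm (Fin (T + D)), (∀ l : Fin D, d0 (s (Fin.natAdd T l)) = 1) →
      rn κ (rn (Sum.map id s) (cp (d' ∘ Sum.map id s) QQ)) =
        (-2 : ℂ) • itD (Sum.inr none) (Sum.inl c) D (rn κ1 (cp d h)) := by
    intro s hgood
    obtain ⟨π, hπ⟩ := exists_perm (fun j => d (Sum.inr j)) d0 hd01 hd02 s hgood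
    -- degrees before the operator
    let dE0 : Fin (T + D) → ℕ := Fin.addCases (fun j => d0 (s (Fin.castAdd D j))) (fun _ => 0)
    have hE01 : ∀ j, dE0 (Fin.castAdd D j) = d0 (s (Fin.castAdd D j)) :=
      fun j => Fin.addCases_left j
    have hE02 : ∀ l, dE0 (Fin.natAdd T l) = 0 := fun l => Fin.addCases_right l
    let dE : σ ⊕ Fin (T + D) → ℕ := Sum.elim (fun x => d (Sum.inl x)) dE0
    have hE1 : ∀ j, dE (Sum.inr (Fin.castAdd D j)) = d0 (s (Fin.castAdd D j)) := hE01
    have hE2 : ∀ l, dE (Sum.inr (Fin.natAdd T l)) = 0 := hE02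
    have e1 : cp dE (rn (Sum.map id (Fin.castAdd D)) h) =
        rn (Sum.map id (Fin.castAdd D)) (cp (d ∘ Sum.map id π) h) := by
      refine cp_comm (rn (Sum.map id (Fin.castAdd D))).toLinearMap _ _ (fun f v hv => ?_) h
      obtain ⟨u, hu, rfl⟩ := exists_coeff_rn _ _ v hv
      refine ⟨u, hu, fun hvd => ?_, fun hud => ?_⟩
      · funext y
        have h1 := cdeg_mapDomain_inj (Sum.map id (Fin.castAdd D)) (emb_inj (D := D)) u y
        rw [← h1, hvd]
        rcases y with x | j
        · rfl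
        · exact (hE1 j).trans (hπ j).1
      · funext y
        rcases y with x | y
        · have h1 := cdeg_mapDomain_inj (Sum.map id (Fin.castAdd D)) (emb_inj (D := D)) u
            (Sum.inl x)
          exact h1.trans (congrFun hud _)
        · refine Fin.addCases (fun j => ?_) (fun l => ?_) y
          · have h1 := cdeg_mapDomain_inj (Sum.map id (Fin.castAdd D)) (emb_inj (D := D)) u
              (Sum.inr j)
            rw [hE1, (hπ j).1]
            exact h1.trans (congrFun hud _)
          · rw [hE2]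
            refine cdeg_mapDomain_not (Sum.map id (Fin.castAdd D)) (Sum.inr (Fin.natAdd T l) :
              σ ⊕ Fin (T + D)) ?_ u
            rintro (x | j) h3
            · exact absurd h3 (by simp)
            · rw [Sum.map_inr] at h3
              have h4 := congrArg Fin.val (Sum.inr_injective h3)
              simp at h4
              omega
    have e3 : (κ ∘ Sum.map id s) ∘ Sum.map id (Fin.castAdd D) = κ1 ∘ Sum.map id π := by
      funext y
      rcases y with x | j
      · rfl
      · simp only [Function.comp_apply, Sum.map_inr, κ, κ1]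
        congr 1
        by_cases hj : d (Sum.inr (π j)) = 1
        · rw [if_pos hj]
          exact hκ0 _ ((hπ j).1.trans hj)
        · rw [if_neg hj, (hπ j).2 hj, hκ01, if_neg hj]
    have hκc : ∀ b, (κ ∘ Sum.map id s) b = (κ ∘ Sum.map id s) (Sum.inl c) → b = Sum.inl c := by
      rintro (x | y) hx
      · simpa [κ] using hx
      · simp [κ] at hx
    have hmain := rc_cmp_Qn (m := m) (κ ∘ Sum.map id s) (u := nw σ T n) (c := Sum.inl c)
      (z := Sum.inr none) (fun j => nw_ne c) hκc n (fun i j hi hj hij => nw_inj hi hj hij)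
      (fun j hj => by
        obtain ⟨l, hl, _⟩ := hnwf j hj
        rw [hl]
        simp only [Function.comp_apply, Sum.map_inr, κ]
        rw [hκ0 _ (hgood l)])
      (δ := dE) (δ' := d' ∘ Sum.map id s)
      (fun j hj => by
        obtain ⟨l, hl, _⟩ := hnwf j hj
        rw [hl]
        exact ⟨hgood l, hE2 l⟩)
      (by
        simp only [Function.comp_apply, Sum.map_inl, id, d', Sum.elim_inl, dE, if_true]
        rw [hdc]
        omega)
      (by
        rintro (x | y) hb1 hb2
        · have hx : x ≠ c := fun h => hb1 (by rw [h])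
          simp [d', dE, hx]
        · revert hb2
          refine Fin.addCases (fun j _ => ?_) (fun l hb2 => ?_) y
          · rw [hE1]
            rfl
          · exact absurd (by
              obtain ⟨l', hl', hv⟩ := hnwf l l.2
              rw [hl']
              congr 2
              exact Fin.ext hv.symm) (hb2 l l.2))
      (rn (Sum.map id (Fin.castAdd D)) h)
      (fun v hv j hj => by
        obtain ⟨l, hl, _⟩ := hnwf j hj
        obtain ⟨u, _, _, _, h3⟩ := hemb v hv
        rw [hl]
        exact h3 l)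
    have e4 : rn (κ1 ∘ Sum.map id π) (cp (d ∘ Sum.map id π) h) = rn κ1 (cp d h) := by
      rw [← rn_rn, ← cp_rn_bij _ (hbij π), show rn (Sum.map id π) h = h from hs π]
    rw [cmp_eq_cp, cmp_eq_cp, rc_eq_rn, rc_eq_rn, e1, rn_rn, e3, e4] at hmain
    rw [rn_rn]
    exact hmain
  have hB : ∀ s : Equiv.Perm (Fin (T + D)), (¬ ∀ l : Fin D, d0 (s (Fin.natAdd T l)) = 1) →
      cp (d' ∘ Sum.map id s) QQ = 0 := by
    intro s hbad
    apply MvPolynomial.ext
    intro v
    rw [coeff_cp, coeff_zero]
    split_ifs with hv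
    · by_contra hne
      apply hbad
      obtain ⟨w, hw, _, _, h4, _, _⟩ := exists_coeff_Qn (fun j => nw_ne c) n
        (fun i j hi hj hij => nw_inj hi hj hij) hne
      obtain ⟨u, _, _, _, h3⟩ := hemb w hw
      have h5 : ∑ j ∈ Finset.range (n + 2), ∑ i, w (i, nw σ T n j) = 0 := by
        apply Finset.sum_eq_zero
        intro j hj
        obtain ⟨l, hl, _⟩ := hnwf j (Finset.mem_range.1 hj)
        rw [hl]
        exact h3 l
      rw [h5, add_zero] at h4
      have h6 : ∀ j ∈ Finset.range (n + 2), 1 ≤ ∑ i, v (i, nw σ T n j) := by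
        intro j hj
        obtain ⟨l, hl, _⟩ := hnwf j (Finset.mem_range.1 hj)
        rw [hl]
        have h7 := congrFun hv (Sum.inr (Fin.natAdd T l))
        rw [cdeg] at h7
        rw [h7]
        exact hd03 _
      intro l
      by_contra hl1
      have h7 : ∑ j ∈ Finset.range (n + 2), 1 < ∑ j ∈ Finset.range (n + 2),
          ∑ i, v (i, nw σ T n j) := by
        refine Finset.sum_lt_sum h6 ⟨l, Finset.mem_range.2 l.2, ?_⟩
        obtain ⟨l', hl', hv'⟩ := hnwf l l.2
        have hll : l' = l := Fin.ext hv'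
        rw [hll] at hl'
        rw [hl']
        have h8 := congrFun hv (Sum.inr (Fin.natAdd T l))
        rw [cdeg] at h8
        rw [h8]
        have h9 := hd03 (s (Fin.natAdd T l))
        change 1 < d0 (s (Fin.natAdd T l))
        omega
      rw [h4] at h7
      simp at h7
    · rfl
  have h0 : cp d' (symQ T n c h) = 0 := by
    apply MvPolynomial.ext
    intro v
    rw [coeff_cp, coeff_zero]
    split_ifs with hv
    · by_contra hne
      obtain ⟨y, hy⟩ := hNF v hne
      have h1 := congrFun hv (Sum.inr y)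
      rw [cdeg, hy] at h1
      have h2 := hd03 y
      change 0 = d0 y at h1
      omega
    · rfl
  have hsum : ∑ s : Equiv.Perm (Fin (T + D)),
      (if ∀ l : Fin D, d0 (s (Fin.natAdd T l)) = 1 then
        (-2 : ℂ) • itD (Sum.inr none) (Sum.inl c) D (rn κ1 (cp d h)) else 0) = 0 := by
    have h1 := congrArg (fun q => rn κ q) h0
    rw [symQ_apply] at h1
    simp only [map_zero, map_sum] at h1
    refine Eq.trans (Finset.sum_congr rfl fun s _ => ?_) h1
    have h2 : rn κ (cp d' (rc m (Sum.map id s) (Qn (nw σ T n) (Sum.inl c) n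
        (rc m (Sum.map id (Fin.castAdd (n + 2))) h)))) =
        rn κ (rn (Sum.map id s) (cp (d' ∘ Sum.map id s) QQ)) := by
      rw [rc_eq_rn, cp_rn_bij _ (hbij s)]
      rfl
    rw [h2]
    split_ifs with hg
    · exact (hA s hg).symm
    · rw [hB s hg, map_zero, map_zero]
  rw [← Finset.sum_filter, Finset.sum_const, ← Nat.cast_smul_eq_nsmul ℂ] at hsum
  have hit2 := (smul_eq_zero.1 hsum).resolve_left (Nat.cast_ne_zero.2 (Finset.card_ne_zero.2
    ⟨1, by simp [hd02]⟩))
  have hit := (smul_eq_zero.1 hit2).resolve_left (by norm_num)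
  have hdG := colH_rn κ1 d (colH_cp d h)
  have hG : rn κ1 (cp d h) = 0 := by
    refine itD_inj (by simp) _ D _ _ hdG rfl ?_ hit
    have e1 : ∑ x ∈ Finset.univ.filter (fun x => κ1 x = Sum.inr none), d x ≤ T := by
      rw [Finset.sum_filter, Fintype.sum_sum_type]
      have e2 : ∀ x : σ, (if κ1 (Sum.inl x) = Sum.inr none then d (Sum.inl x) else 0) = 0 :=
        fun x => if_neg (by simp [κ1])
      rw [Finset.sum_congr rfl fun x _ => e2 x, Finset.sum_const_zero, zero_add]
      have e3 : ∀ j : Fin T, (if κ1 (Sum.inr j) = Sum.inr none then d (Sum.inr j) else 0) ≤ 1 := by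
        intro j
        by_cases hj : d (Sum.inr j) = 1
        · simp [κ1, hj]
        · simp [κ1, hj]
      calc _ ≤ ∑ j : Fin T, 1 := Finset.sum_le_sum fun j _ => e3 j
        _ = T := by simp
    have e4 : ∑ x ∈ Finset.univ.filter (fun x => κ1 x = Sum.inl c), d x = δ c := by
      have e5 : Finset.univ.filter (fun x => κ1 x = Sum.inl c) = {Sum.inl c} := by
        ext y
        rcases y with x | j
        · simp [κ1]
        · simp [κ1]
      rw [e5, Finset.sum_singleton, hdc]
    rw [e4]
    omega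
  -- restitution
  refine hR m (σ ⊕ Fin T) (σ ⊕ Option (Fin T)) κ1
    {b | ∃ j, b = Sum.inr j ∧ d (Sum.inr j) = 1} (Sum.inr none) ?_ ?_ (cp d h) ?_ ?_ hG
  · rintro (x | j)
    · simp [κ1]
    · by_cases hj : d (Sum.inr j) = 1
      · simp [κ1, hj]
      · simp [κ1, hj]
  · rintro (x | j) (x' | j') hb heq
    · simpa [κ1] using heq
    · simp [κ1] at heq
    · simp [κ1] at heq
    · have hj : ¬ d (Sum.inr j) = 1 := fun h1 => hb ⟨j, rfl, h1⟩
      by_cases hj' : d (Sum.inr j') = 1
      · simp [κ1, hj, hj'] at heq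
      · simpa [κ1, hj, hj'] using heq
  · rintro v hv b ⟨j, rfl, hj⟩
    rw [← hj]
    exact colH_cp d h v hv (Sum.inr j)
  · intro e he
    have hinl : ∀ x : σ, e (Sum.inl x) = Sum.inl x := fun x => he _ (by
      rintro ⟨j, hj, _⟩
      exact absurd hj (by simp))
    have hmem := Equiv.Perm.mem_sumCongrHom_range_of_perm_mapsTo_inl (σ := e) (by
      rintro _ ⟨x, rfl⟩
      exact ⟨x, (hinl x).symm⟩)
    obtain ⟨⟨e1, s⟩, hes⟩ := hmem
    have hes' : (e : σ ⊕ Fin T → σ ⊕ Fin T) = Sum.map id s := by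
      funext y
      rcases y with x | j
      · rw [hinl]
        rfl
      · rw [← hes]
        rfl
    have hde : d ∘ Sum.map id s = d := by
      rw [← hes']
      funext b
      by_cases hb : b ∈ {b : σ ⊕ Fin T | ∃ j, b = Sum.inr j ∧ d (Sum.inr j) = 1}
      · have hb2 : e b ∈ {b : σ ⊕ Fin T | ∃ j, b = Sum.inr j ∧ d (Sum.inr j) = 1} := by
          by_contra hn
          have h1 := e.injective (he _ hn)
          rw [h1] at hn
          exact hn hb
        obtain ⟨j, hj1, hj2⟩ := hb
        obtain ⟨j', hj1', hj2'⟩ := hb2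
        rw [Function.comp_apply, hj1', hj2', hj1, hj2]
      · rw [Function.comp_apply, he _ hb]
    have h1 := cp_rn_bij (Sum.map id s) (hbij s) d h
    rw [show rn (Sum.map id s) h = h from hs s, hde] at h1
    rw [hes']
    exact h1.symm

end Vale.Agent.P181.DG4a
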