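import Vale.Agent.P181.DG4a.Cp

set_option autoImplicit false

/-!
# P181, DG (D4a): polarisations along a list of columns
-/

open MvPolynomial

namespace Vale.Agent.P181.DG4a

open Vale.Agent.P181.SZR3

variable {m : ℕ} {τ τ' : Type} [DecidableEq τ] [DecidableEq τ']

/-- The product of the column operators `colD a c`, `a ∈ L`. -/
noncomputable def polL (c : τ) : List τ →
    (MvPolynomial (Fin m × τ) ℂ →ₗ[ℂ] MvPolynomial (Fin m × τ) ℂ)
  | [] => LinearMap.id
  | a :: L => (colD a c : Derivation ℂ (MvPolynomial (Fin m × τ) ℂ)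
      (MvPolynomial (Fin m × τ) ℂ)).toLinearMap ∘ₗ polL c L

lemma polL_nil (c : τ) (f : MvPolynomial (Fin m × τ) ℂ) : polL c [] f = f := rfl

lemma polL_cons (c a : τ) (L : List τ) (f : MvPolynomial (Fin m × τ) ℂ) :
    polL c (a :: L) f = colD a c (polL c L f) := rfl

/-- The multiplicity of `j` in the list `L`. -/
def cnt (L : List τ) (j : τ) : ℕ := L.count j

lemma cnt_eq_zero {L : List τ} {j : τ} (h : j ∉ L) : cnt L j = 0 := List.count_eq_zero.2 h

lemma cnt_eq_one {L : List τ} {j : τ} (hn : L.Nodup) (h : j ∈ L) : cnt L j = 1 :=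
  List.count_eq_one_of_mem hn h

/-- The monomials of a polarisation. -/
lemma exists_coeff_polL [Fintype τ] (c : τ) (L : List τ) (f : MvPolynomial (Fin m × τ) ℂ)
    (v : Fin m × τ →₀ ℕ) (h : coeff v (polL c L f) ≠ 0) :
    ∃ u, coeff u f ≠ 0 ∧ ∀ j, cdeg v j + (if c = j then L.length else 0) =
      cdeg u j + cnt L j := by
  induction L generalizing v with
  | nil => exact ⟨v, h, fun j => by simp [cnt]⟩
  | cons a L ih =>
    rw [polL_cons] at h
    obtain ⟨i, w, rfl, hw⟩ := exists_coeff_colD a c _ v h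
    obtain ⟨u, hu, hu2⟩ := ih _ hw
    refine ⟨u, hu, fun j => ?_⟩
    have h1 := hu2 j
    rw [cdeg_add, Pi.add_apply, cdeg_single] at h1 ⊢
    rw [cnt] at h1 ⊢
    rw [List.count_cons, List.length_cons]
    by_cases hc : c = j <;> by_cases ha : a = j
    · simp [hc, ha] at h1 ⊢
      omega
    · simp [hc, ha] at h1 ⊢
      omega
    · simp [hc, ha] at h1 ⊢
      omega
    · simp [hc, ha] at h1 ⊢
      omega

omit [DecidableEq τ] [DecidableEq τ'] in
lemma rn_X (φ : τ → τ') (i : Fin m) (j : τ) :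
    rn φ (X (i, j) : MvPolynomial (Fin m × τ) ℂ) = X (i, φ j) := by
  rw [rn, rename_X]

/-- Renamings and column operators. -/
lemma rn_colD (φ : τ → τ') (a c : τ) (hφ : ∀ x, φ x = φ c → x = c)
    (f : MvPolynomial (Fin m × τ) ℂ) : rn φ (colD a c f) = colD (φ a) (φ c) (rn φ f) := by
  induction f using MvPolynomial.induction_on with
  | C r =>
    rw [← MvPolynomial.algebraMap_eq, Derivation.map_algebraMap, AlgHom.commutes,
      Derivation.map_algebraMap, map_zero]
  | add p q hp hq => rw [map_add, map_add, map_add, map_add, hp, hq]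
  | mul_X p n hp =>
    obtain ⟨i, x⟩ := n
    rw [Derivation.leibniz, map_add, map_mul, Derivation.leibniz, smul_eq_mul, smul_eq_mul,
      smul_eq_mul, smul_eq_mul, map_mul, map_mul, hp, colD_X, rn_X, colD_X]
    by_cases hx : x = c
    · subst hx
      simp [rn_X]
    · have h1 : ¬ φ x = φ c := fun h => hx (hφ x h)
      simp [hx, h1]

lemma rn_polL (φ : τ → τ') (c : τ) (hφ : ∀ x, φ x = φ c → x = c) (L : List τ)
    (f : MvPolynomial (Fin m × τ) ℂ) : rn φ (polL c L f) = polL (φ c) (L.map φ) (rn φ f) := by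
  induction L with
  | nil => rfl
  | cons a L ih => rw [polL_cons, List.map_cons, polL_cons, rn_colD φ a c hφ, ih]

lemma polL_replicate (c a : τ) (n : ℕ) (f : MvPolynomial (Fin m × τ) ℂ) :
    polL c (List.replicate n a) f = itD a c n f := by
  induction n with
  | zero => rw [itD_zero]; rfl
  | succ n ih => rw [List.replicate_succ, polL_cons, ih, itD_succ]

end Vale.Agent.P181.DG4a
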