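import Vale.Agent.P181.DG4a.Core
import Vale.Agent.P181.DGx.H514.Lit

set_option autoImplicit false

/-!
# P181, DG (D4): the block [S]
-/

namespace Vale.Agent.P181.DG4a

/-- **[S]** -/
theorem slStmt : Vale.Agent.P181.DG.H514.SlStmt := by
  intro m B _ _ a c d D hac hD f hf h0
  exact itD_inj hac (d a) D d f hf rfl (by omega) h0

end Vale.Agent.P181.DG4a
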