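import Vale.Agent.P181.DG4a.Pol
import Vale.Agent.P181.DGx.H514.Lit

set_option autoImplicit false

/-!
# P181, DG (D4a): injectivity of the top part
-/

open MvPolynomial

namespace Vale.Agent.P181.DG4a

open Vale.Agent.P181.SZR3
open Vale.Agent.P181.DG.H514 (RestStmt)

section gen

variable {m : ℕ} {τ τ' : Type}

lemma cdeg_mapDomain_inj [Fintype τ] (φ : τ → τ') (hφ : Function.Injective φ)
    (u : Fin m × τ →₀ ℕ) (x : τ) :
    cdeg (u.mapDomain (fun p : Fin m × τ => (p.1, φ p.2))) (φ x) = cdeg u x := by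
  classical
  rw [cdeg_mapDomain]
  have h : Finset.univ.filter (fun y => φ y = φ x) = {x} := by
    ext y
    simp [hφ.eq_iff]
  rw [h, Finset.sum_singleton]

lemma cdeg_mapDomain_not [Fintype τ] (φ : τ → τ') (y : τ') (hy : ∀ x, φ x ≠ y)
    (u : Fin m × τ →₀ ℕ) :
    cdeg (u.mapDomain (fun p : Fin m × τ => (p.1, φ p.2))) y = 0 := by
  classical
  rw [cdeg_mapDomain]
  have h : Finset.univ.filter (fun x => φ x = y) = ∅ := by
    ext x
    simp [hy x]
  rw [h, Finset.sum_empty]

lemma cp_rn_bij [Fintype τ] (ψ : τ → τ') (hψ : Function.Bijective ψ) (d : τ' → ℕ)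
    (f : MvPolynomial (Fin m × τ) ℂ) : cp d (rn ψ f) = rn ψ (cp (d ∘ ψ) f) := by
  refine cp_comm (rn ψ).toLinearMap (d ∘ ψ) d (fun f v hv => ?_) f
  obtain ⟨u, hu, rfl⟩ := exists_coeff_rn ψ f v hv
  refine ⟨u, hu, fun h => ?_, fun h => ?_⟩
  · funext x
    rw [← cdeg_mapDomain_inj ψ hψ.1 u x, h]
    rfl
  · funext y
    obtain ⟨x, rfl⟩ := hψ.2 y
    rw [cdeg_mapDomain_inj ψ hψ.1 u x, h]
    rfl

lemma colH_rn [Fintype τ] [DecidableEq τ'] (φ : τ → τ') (d : τ → ℕ)
    {f : MvPolynomial (Fin m × τ) ℂ} (hf : ColH d f) :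
    ColH (fun y => ∑ x ∈ Finset.univ.filter (fun x => φ x = y), d x) (rn φ f) := by
  intro v hv y
  obtain ⟨u, hu, rfl⟩ := exists_coeff_rn φ f v hv
  have h := cdeg_mapDomain φ u y
  rw [cdeg] at h
  rw [h]
  exact Finset.sum_congr rfl fun x _ => hf u hu x

end gen

lemma exists_perm {T D : ℕ} (δ : Fin T → ℕ) (δ' : Fin (T + D) → ℕ)
    (h1 : ∀ j, δ' (Fin.castAdd D j) = δ j) (h2 : ∀ l, δ' (Fin.natAdd T l) = 1)
    (s : Equiv.Perm (Fin (T + D))) (hs : ∀ l : Fin D, δ' (s (Fin.natAdd T l)) = 1) :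
    ∃ π : Equiv.Perm (Fin T), ∀ j, δ' (s (Fin.castAdd D j)) = δ (π j) ∧
      (δ (π j) ≠ 1 → s (Fin.castAdd D j) = Fin.castAdd D (π j)) := by
  classical
  have hex : ∀ j : {j : Fin T // δ' (s (Fin.castAdd D j)) ≠ 1},
      ∃ i : {i : Fin T // δ i ≠ 1}, Fin.castAdd D i.1 = s (Fin.castAdd D j.1) := by
    rintro ⟨j, hj⟩
    have key : ∀ y : Fin (T + D), δ' y ≠ 1 → ∃ i : {i : Fin T // δ i ≠ 1},
        Fin.castAdd D i.1 = y := by
      intro y
      refine Fin.addCases (fun i hi => ⟨⟨i, by rwa [h1] at hi⟩, rfl⟩)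
        (fun l hl => absurd (h2 l) hl) y
    exact key _ hj
  choose f hf using hex
  have hbij : Function.Bijective f := by
    constructor
    · intro j j' h
      have h3 := hf j
      rw [h, hf j'] at h3
      exact Subtype.ext (Fin.castAdd_injective T D (s.injective h3)).symm
    · intro i
      have key : ∀ y : Fin (T + D), s y = Fin.castAdd D i.1 → ∃ j, f j = i := by
        intro y
        refine Fin.addCases (fun j hj => ?_) (fun l hl => ?_) y
        · refine ⟨⟨j, ?_⟩, ?_⟩
          · rw [hj, h1]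
            exact i.2
          · apply Subtype.ext
            apply Fin.castAdd_injective T D
            rw [hf, hj]
        · exfalso
          have h3 := hs l
          rw [hl, h1] at h3
          exact i.2 h3
      exact key (s.symm (Fin.castAdd D i.1)) (s.apply_symm_apply _)
  let e : {j : Fin T // δ' (s (Fin.castAdd D j)) ≠ 1} ≃ {i : Fin T // δ i ≠ 1} :=
    Equiv.ofBijective f hbij
  refine ⟨e.extendSubtype, fun j => ?_⟩
  by_cases hj : δ' (s (Fin.castAdd D j)) ≠ 1
  · have h3 : e.extendSubtype j = (f ⟨j, hj⟩).1 := Equiv.extendSubtype_apply_of_mem e j hj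
    have h4 := hf ⟨j, hj⟩
    rw [h3]
    exact ⟨by rw [← h1, h4], fun _ => h4.symm⟩
  · have h3 := Equiv.extendSubtype_not_mem e j hj
    exact ⟨(not_not.1 hj).trans (not_not.1 h3).symm, fun h => absurd h h3⟩

variable {m T D : ℕ} {σ : Type} [Fintype σ] [DecidableEq σ]

/-- The new small columns. -/
def LN (σ : Type) (T D : ℕ) : List (σ ⊕ Fin (T + D)) :=
  (List.finRange D).map fun l => Sum.inr (Fin.natAdd T l)

omit [Fintype σ] [DecidableEq σ] in
lemma length_LN : (LN σ T D).length = D := by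
  rw [LN, List.length_map, List.length_finRange]

omit [Fintype σ] in
lemma count_LN_inl (x : σ) : cnt (LN σ T D) (Sum.inl x) = 0 := by
  apply cnt_eq_zero
  simp [LN]

omit [Fintype σ] in
lemma count_LN_old (j : Fin T) : cnt (LN σ T D) (Sum.inr (Fin.castAdd D j)) = 0 := by
  apply cnt_eq_zero
  intro h
  rw [LN, List.mem_map] at h
  obtain ⟨l, _, hl⟩ := h
  have h1 := congrArg Fin.val (Sum.inr_injective hl)
  simp at h1
  omega

omit [Fintype σ] in
lemma count_LN_new (l : Fin D) : cnt (LN σ T D) (Sum.inr (Fin.natAdd T l)) = 1 := by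
  apply cnt_eq_one
  · refine List.Nodup.map ?_ (List.nodup_finRange D)
    intro a b h
    exact Fin.natAdd_injective D T (Sum.inr_injective h)
  · rw [LN, List.mem_map]
    exact ⟨l, List.mem_finRange l, rfl⟩

/-- The polarisation along the new columns. -/
noncomputable def LL (m T D : ℕ) {σ : Type} [DecidableEq σ] (c : σ) :
    MvPolynomial (Fin m × (σ ⊕ Fin T)) ℂ →ₗ[ℂ] MvPolynomial (Fin m × (σ ⊕ Fin (T + D))) ℂ :=
  polL (Sum.inl c) (LN σ T D) ∘ₗ (rn (Sum.map id (Fin.castAdd D))).toLinearMap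

omit [Fintype σ] [DecidableEq σ] in
lemma emb_inj : Function.Injective (Sum.map id (Fin.castAdd D) : σ ⊕ Fin T → σ ⊕ Fin (T + D)) :=
  Sum.map_injective.2 ⟨Function.injective_id, Fin.castAdd_injective T D⟩

lemma exists_coeff_LL (c : σ) (f : MvPolynomial (Fin m × (σ ⊕ Fin T)) ℂ)
    (v : Fin m × (σ ⊕ Fin (T + D)) →₀ ℕ) (h : coeff v (LL m T D c f) ≠ 0) :
    ∃ u, coeff u f ≠ 0 ∧
      (∀ x, cdeg v (Sum.inl x) + (if x = c then D else 0) = cdeg u (Sum.inl x)) ∧
      (∀ j, cdeg v (Sum.inr (Fin.castAdd D j)) = cdeg u (Sum.inr j)) ∧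
      ∀ l, cdeg v (Sum.inr (Fin.natAdd T l)) = 1 := by
  obtain ⟨w, hw, hw2⟩ := exists_coeff_polL _ _ _ v h
  obtain ⟨u, hu, rfl⟩ := exists_coeff_rn _ _ w hw
  refine ⟨u, hu, fun x => ?_, fun j => ?_, fun l => ?_⟩
  · have h1 := hw2 (Sum.inl x)
    rw [count_LN_inl, length_LN] at h1
    have h2 := cdeg_mapDomain_inj (Sum.map id (Fin.castAdd D)) (emb_inj (D := D)) u (Sum.inl x)
    rw [Sum.map_inl, id] at h2
    rw [h2] at h1
    by_cases hx : x = c
    · subst hx
      simpa using h1
    · simpa [hx, Ne.symm hx] using h1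
  · have h1 := hw2 (Sum.inr (Fin.castAdd D j))
    rw [count_LN_old] at h1
    have h2 := cdeg_mapDomain_inj (Sum.map id (Fin.castAdd D)) (emb_inj (D := D)) u (Sum.inr j)
    rw [Sum.map_inr] at h2
    rw [h2] at h1
    simpa using h1
  · have h1 := hw2 (Sum.inr (Fin.natAdd T l))
    rw [count_LN_new] at h1
    have h2 := cdeg_mapDomain_not (Sum.map id (Fin.castAdd D)) (Sum.inr (Fin.natAdd T l) :
      σ ⊕ Fin (T + D)) (by
        rintro (x | j) h3
        · exact absurd h3 (by simp)
        · rw [Sum.map_inr] at h3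
          have h4 := congrArg Fin.val (Sum.inr_injective h3)
          simp at h4
          omega) u
    rw [h2] at h1
    simpa using h1

/-- **Injectivity of the top part.** -/
theorem top_inj (hR : RestStmt) (c : σ) (k : ℕ) (h : MvPolynomial (Fin m × (σ ⊕ Fin T)) ℂ)
    (hk : ∀ v, coeff v h ≠ 0 → ∑ i, v (i, Sum.inl c) = k)
    (hs : ∀ s : Equiv.Perm (Fin T), rn (Sum.map id s) h = h) (hD : T + D ≤ k)
    (h0 : ∑ s : Equiv.Perm (Fin (T + D)), rn (Sum.map id s) (LL m T D c h) = 0) : h = 0 := by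
  classical
  apply eq_zero_of_cp
  intro d
  by_cases hdc : d (Sum.inl c) = k
  swap
  · apply MvPolynomial.ext
    intro v
    rw [coeff_cp, coeff_zero]
    split_ifs with hv
    · by_contra hne
      exact hdc ((congrFun hv (Sum.inl c)).symm.trans (hk v hne))
    · rfl
  -- the target degrees
  let d0 : Fin (T + D) → ℕ := Fin.addCases (fun j => d (Sum.inr j)) (fun _ => 1)
  have hd01 : ∀ j, d0 (Fin.castAdd D j) = d (Sum.inr j) := fun j => Fin.addCases_left j
  have hd02 : ∀ l, d0 (Fin.natAdd T l) = 1 := fun l => Fin.addCases_right l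
  let d' : σ ⊕ Fin (T + D) → ℕ :=
    Sum.elim (fun x => if x = c then k - D else d (Sum.inl x)) d0
  let κ0 : Fin (T + D) → Option (Fin T) :=
    Fin.addCases (fun j => if d (Sum.inr j) = 1 then none else some j) (fun _ => none)
  have hκ01 : ∀ j, κ0 (Fin.castAdd D j) = if d (Sum.inr j) = 1 then none else some j :=
    fun j => Fin.addCases_left j
  have hκ02 : ∀ l, κ0 (Fin.natAdd T l) = none := fun l => Fin.addCases_right l
  have hκ0 : ∀ y, d0 y = 1 → κ0 y = none := by
    intro y
    refine Fin.addCases (fun j hj => ?_) (fun l _ => hκ02 l) y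
    rw [hd01] at hj
    rw [hκ01, if_pos hj]
  let κ : σ ⊕ Fin (T + D) → σ ⊕ Option (Fin T) := Sum.map id κ0
  let κ1 : σ ⊕ Fin T → σ ⊕ Option (Fin T) :=
    Sum.map id fun j => if d (Sum.inr j) = 1 then none else some j
  have hbij : ∀ {n : ℕ} (s : Equiv.Perm (Fin n)),
      Function.Bijective (Sum.map id s : σ ⊕ Fin n → σ ⊕ Fin n) := fun s =>
    ⟨Sum.map_injective.2 ⟨Function.injective_id, s.injective⟩,
      Sum.map_surjective.2 ⟨Function.surjective_id, s.surjective⟩⟩
  -- the two claims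
  have hA : ∀ s : Equiv.Perm (Fin (T + D)), (∀ l : Fin D, d0 (s (Fin.natAdd T l)) = 1) →
      rn κ (rn (Sum.map id s) (cp (d' ∘ Sum.map id s) (LL m T D c h))) =
        itD (Sum.inr none) (Sum.inl c) D (rn κ1 (cp d h)) := by
    intro s hgood
    obtain ⟨π, hπ⟩ := exists_perm (fun j => d (Sum.inr j)) d0 hd01 hd02 s hgood
    have e1 : cp (d' ∘ Sum.map id s) (LL m T D c h) =
        LL m T D c (cp (d ∘ Sum.map id π) h) := by
      refine cp_comm (LL m T D c) _ _ (fun f v hv => ?_) h
      obtain ⟨u, hu, hu1, hu2, hu3⟩ := exists_coeff_LL c f v hv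
      refine ⟨u, hu, fun hvd => ?_, fun hud => ?_⟩
      · funext y
        rcases y with x | j
        · rw [← hu1 x, hvd]
          simp only [Function.comp_apply, Sum.map_inl, id, d', Sum.elim_inl]
          split_ifs with hx
          · rw [hx, hdc]
            omega
          · rfl
        · rw [← hu2 j, hvd]
          simp only [Function.comp_apply, Sum.map_inr, d', Sum.elim_inr]
          exact (hπ j).1
      · funext y
        rcases y with x | y
        · have h1 := hu1 x
          rw [hud] at h1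
          simp only [Function.comp_apply, Sum.map_inl, id, d', Sum.elim_inl] at h1 ⊢
          split_ifs at h1 ⊢ with hx
          · rw [hx, hdc] at h1
            rw [hx]
            omega
          · exact h1
        · simp only [Function.comp_apply, Sum.map_inr, d', Sum.elim_inr]
          refine Fin.addCases (fun j => ?_) (fun l => ?_) y
          · rw [hu2 j, hud]
            exact (hπ j).1.symm
          · rw [hu3 l, hgood l]
    have e2 : (LN σ T D).map (κ ∘ Sum.map id s) = List.replicate D (Sum.inr none) := by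
      rw [LN, List.map_map, List.eq_replicate_iff]
      refine ⟨by rw [List.length_map, List.length_finRange], fun b hb => ?_⟩
      obtain ⟨l, _, rfl⟩ := List.mem_map.1 hb
      simp only [Function.comp_apply, Sum.map_inr, κ]
      rw [hκ0 _ (hgood l)]
    have e3 : (κ ∘ Sum.map id s) ∘ Sum.map id (Fin.castAdd D) = κ1 ∘ Sum.map id π := by
      funext y
      rcases y with x | j
      · rfl
      · simp only [Function.comp_apply, Sum.map_inr, κ, κ1]
        congr 1
        by_cases hj : d (Sum.inr (π j)) = 1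
        · rw [if_pos hj]
          exact hκ0 _ ((hπ j).1.trans hj)
        · rw [if_neg hj, (hπ j).2 hj, hκ01, if_neg hj]
    rw [e1, rn_rn, LL, LinearMap.comp_apply, AlgHom.toLinearMap_apply,
      rn_polL (κ ∘ Sum.map id s) (Sum.inl c), e2, polL_replicate, rn_rn, e3, ← rn_rn,
      ← cp_rn_bij _ (hbij π), hs π]
    · rfl
    · rintro (x | y) hx
      · simpa [κ] using hx
      · simp [κ] at hx
  have hB : ∀ s : Equiv.Perm (Fin (T + D)), (¬ ∀ l : Fin D, d0 (s (Fin.natAdd T l)) = 1) →
      cp (d' ∘ Sum.map id s) (LL m T D c h) = 0 := by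
    intro s hbad
    obtain ⟨l, hl⟩ := not_forall.1 hbad
    apply MvPolynomial.ext
    intro v
    rw [coeff_cp, coeff_zero]
    split_ifs with hv
    · by_contra hne
      obtain ⟨u, _, _, _, hu3⟩ := exists_coeff_LL c h v hne
      have h1 := hu3 l
      rw [hv] at h1
      exact hl h1
    · rfl
  have hsum : ∑ s : Equiv.Perm (Fin (T + D)),
      (if ∀ l : Fin D, d0 (s (Fin.natAdd T l)) = 1 then
        itD (Sum.inr none) (Sum.inl c) D (rn κ1 (cp d h)) else 0) = 0 := by
    have h1 := congrArg (fun q => rn κ (cp d' q)) h0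
    simp only [map_zero, map_sum] at h1
    refine Eq.trans (Finset.sum_congr rfl fun s _ => ?_) h1
    rw [cp_rn_bij _ (hbij s)]
    split_ifs with hg
    · exact (hA s hg).symm
    · rw [hB s hg, map_zero, map_zero]
  rw [← Finset.sum_filter, Finset.sum_const, ← Nat.cast_smul_eq_nsmul ℂ] at hsum
  have hit := (smul_eq_zero.1 hsum).resolve_left (Nat.cast_ne_zero.2 (Finset.card_ne_zero.2
    ⟨1, by simp [hd02]⟩))
  have hdG := colH_rn κ1 d (colH_cp d h)
  have hG : rn κ1 (cp d h) = 0 := by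
    refine itD_inj (by simp) _ D _ _ hdG rfl ?_ hit
    have e1 : ∑ x ∈ Finset.univ.filter (fun x => κ1 x = Sum.inr none), d x ≤ T := by
      rw [Finset.sum_filter, Fintype.sum_sum_type]
      have e2 : ∀ x : σ, (if κ1 (Sum.inl x) = Sum.inr none then d (Sum.inl x) else 0) = 0 :=
        fun x => if_neg (by simp [κ1])
      rw [Finset.sum_congr rfl fun x _ => e2 x, Finset.sum_const_zero, zero_add]
      have e3 : ∀ j : Fin T, (if κ1 (Sum.inr j) = Sum.inr none then d (Sum.inr j) else 0) ≤ 1 := by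
        intro j
        by_cases hj : d (Sum.inr j) = 1
        · simp [κ1, hj]
        · simp [κ1, hj]
      calc _ ≤ ∑ j : Fin T, 1 := Finset.sum_le_sum fun j _ => e3 j
        _ = T := by simp
    have e4 : ∑ x ∈ Finset.univ.filter (fun x => κ1 x = Sum.inl c), d x = k := by
      have e5 : Finset.univ.filter (fun x => κ1 x = Sum.inl c) = {Sum.inl c} := by
        ext y
        rcases y with x | j
        · simp [κ1]
        · simp [κ1]
      rw [e5, Finset.sum_singleton, hdc]
    rw [e4]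
    omega
  -- restitution
  refine hR m (σ ⊕ Fin T) (σ ⊕ Option (Fin T)) κ1
    {b | ∃ j, b = Sum.inr j ∧ d (Sum.inr j) = 1} (Sum.inr none) ?_ ?_ (cp d h) ?_ ?_ hG
  · rintro (x | j)
    · simp [κ1]
    · by_cases hj : d (Sum.inr j) = 1
      · simp [κ1, hj]
      · simp [κ1, hj]
  · rintro (x | j) (x' | j') hb heq
    · simpa [κ1] using heq
    · simp [κ1] at heq
    · simp [κ1] at heq
    · have hj : ¬ d (Sum.inr j) = 1 := fun h1 => hb ⟨j, rfl, h1⟩
      by_cases hj' : d (Sum.inr j') = 1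
      · simp [κ1, hj, hj'] at heq
      · simpa [κ1, hj, hj'] using heq
  · rintro v hv b ⟨j, rfl, hj⟩
    rw [← hj]
    exact colH_cp d h v hv (Sum.inr j)
  · intro e he
    have hinl : ∀ x : σ, e (Sum.inl x) = Sum.inl x := fun x => he _ (by
      rintro ⟨j, hj, _⟩
      exact absurd hj (by simp))
    have hmem := Equiv.Perm.mem_sumCongrHom_range_of_perm_mapsTo_inl (σ := e) (by
      rintro _ ⟨x, rfl⟩
      exact ⟨x, (hinl x).symm⟩)
    obtain ⟨⟨e1, s⟩, hes⟩ := hmem
    have hes' : (e : σ ⊕ Fin T → σ ⊕ Fin T) = Sum.map id s := by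
      funext y
      rcases y with x | j
      · rw [hinl]
        rfl
      · rw [← hes]
        rfl
    have hde : d ∘ Sum.map id s = d := by
      rw [← hes']
      funext b
      by_cases hb : b ∈ {b : σ ⊕ Fin T | ∃ j, b = Sum.inr j ∧ d (Sum.inr j) = 1}
      · have hb2 : e b ∈ {b : σ ⊕ Fin T | ∃ j, b = Sum.inr j ∧ d (Sum.inr j) = 1} := by
          by_contra hn
          have h1 := e.injective (he _ hn)
          rw [h1] at hn
          exact hn hb
        obtain ⟨j, hj1, hj2⟩ := hb
        obtain ⟨j', hj1', hj2'⟩ := hb2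
        rw [Function.comp_apply, hj1', hj2', hj1, hj2]
      · rw [Function.comp_apply, he _ hb]
    have h1 := cp_rn_bij (Sum.map id s) (hbij s) d h
    rw [hs s, hde] at h1
    rw [hes']
    exact h1.symm

end Vale.Agent.P181.DG4a
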